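import Mathlib
import Vale.Agent.P122.C.Defs

/-! # P122 / A : the analytic part. From a function with Fourier support near a curved surface to the multiscale
amplitudes `C.Amp` (helper117)

`K` levels, `n` digits per level, `R = 2^(2 K n)`. The caps of level `i` are the squares of side `2^(-i n)` in slope space;
the tubes of level `i` have radius `2^(i n)` and length `2^(2 i n)`. -/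

open MeasureTheory Complex Set Vale.Agent.P122.C
open scoped ENNReal NNReal ContDiff FourierTransform SchwartzMap

set_option linter.all false

namespace Vale.Agent.P122.A

/-- physical space, also frequency space; the third coordinate `x 2` is the time -/
abbrev E3 := EuclideanSpace ℝ (Fin 3)

/-- horizontal part -/
def hz (x : E3) : Fin 2 → ℝ := ![x 0, x 1]

/-- gauge of the sheared box with centre `p`, slope `v`, frame `θ` and half sizes `s1` (wide direction), `s2` (normal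
direction), `s3` (time) -/
noncomputable def gau (s1 s2 s3 θ : ℝ) (v : Fin 2 → ℝ) (p z : E3) : ℝ :=
  |fw θ (fun j => hz z j - hz p j - (z 2 - p 2) * v j)| / s1 +
  |fn θ (fun j => hz z j - hz p j - (z 2 - p 2) * v j)| / s2 + |z 2 - p 2| / s3

/-- the weight of the sheared box -/
noncomputable def wt (M : ℕ) (s1 s2 s3 θ : ℝ) (v : Fin 2 → ℝ) (p z : E3) : ℝ≥0∞ :=
  ENNReal.ofReal (((1 + gau s1 s2 s3 θ v p z) ^ M)⁻¹)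

/-- the dual sheared box in frequency space -/
def fbx (C r1 r2 r3 θ : ℝ) (v : Fin 2 → ℝ) (ζ : E3) : Set E3 :=
  {ξ | |fw θ (fun j => hz ξ j - hz ζ j)| ≤ C * r1 ∧ |fn θ (fun j => hz ξ j - hz ζ j)| ≤ C * r2 ∧
    |ξ 2 - ζ 2 + v 0 * (ξ 0 - ζ 0) + v 1 * (ξ 1 - ζ 1)| ≤ C * r3}

/-- surface data: a set `Γ` of frequencies, contained in the `C / R`-neighbourhood of a surface with definite curvature,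
with its slopes `v` -/
structure Srf (C R : ℝ) (Γ : Set E3) (v : E3 → Fin 2 → ℝ) : Prop where
  meas : MeasurableSet Γ
  vmeas : ∀ j, Measurable fun ξ => v ξ j
  rng : ∀ ξ ∈ Γ, ∀ j, 0 ≤ v ξ j ∧ v ξ j < 1
  box : ∀ ρ : ℝ, 0 < ρ → R⁻¹ ≤ ρ ^ 2 → ∀ ξ ∈ Γ, ∀ η ∈ Γ, (∀ j, |v ξ j - v η j| ≤ ρ) →
    |ξ 0 - η 0| ≤ C * ρ ∧ |ξ 1 - η 1| ≤ C * ρ ∧ |ξ 2 - η 2 + v η 0 * (ξ 0 - η 0) + v η 1 * (ξ 1 - η 1)| ≤ C * ρ ^ 2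
  sep : ∀ ξ ∈ Γ, ∀ η ∈ Γ, ∀ j, |v ξ j - v η j| ≤ C * (|ξ 0 - η 0| + |ξ 1 - η 1| + R⁻¹)
  dir : ∀ ρ : ℝ, 0 < ρ → R⁻¹ ≤ ρ ^ 2 → ∀ η ∈ Γ, ∀ θ : ℝ, ∃ ψ : Fin 2 → ℝ, C⁻¹ ≤ fw θ ψ ∧ |ψ 0| ≤ C ∧ |ψ 1| ≤ C ∧
    ∀ ξ ∈ Γ, ∀ ζ ∈ Γ, (∀ j, |v ξ j - v η j| ≤ ρ) → (∀ j, |v ζ j - v η j| ≤ ρ) →
      |fw θ (fun j => hz ξ j - hz ζ j) - (ψ 0 * (v ξ 0 - v ζ 0) + ψ 1 * (v ξ 1 - v ζ 1))| ≤ C * ρ ^ 2

/-- the piece of `g` with slopes in the cap `τ` of level `i` -/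
noncomputable def pce (n i : ℕ) (v : E3 → Fin 2 → ℝ) (τ : Z2) (g : E3 → ℂ) (ξ : E3) : ℂ := by
  classical exact if ∀ j, ⌊(2:ℝ) ^ (i * n) * v ξ j⌋ = τ j then g ξ else 0

/-- base point of the tube `S` of level `i` -/
noncomputable def bp (n i : ℕ) (S : Nd) : E3 := !₂[2 ^ (i * n) * (S.o 0 : ℝ), 2 ^ (i * n) * (S.o 1 : ℝ), 2 ^ (2 * i * n) * (S.T : ℝ)]

/-- slope of the tube `S` of level `i` -/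
noncomputable def slp (n i : ℕ) (S : Nd) : Fin 2 → ℝ := fun j => (S.τ j : ℝ) / 2 ^ (i * n)

/-- gauge of the tube `S` of level `i` -/
noncomputable def gS (n i : ℕ) (S : Nd) (z : E3) : ℝ :=
  gau (2 ^ (i * n)) (2 ^ (i * n)) (2 ^ (2 * i * n)) 0 (slp n i S) (bp n i S) z

/-- weight of the tube `S` of level `i` -/
noncomputable def wS (M n i : ℕ) (S : Nd) (z : E3) : ℝ≥0∞ := ENNReal.ofReal (((1 + gS n i S z) ^ M)⁻¹)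

/-! ## The blocks -/

/-- [AN1] Bernstein inequality with weights -/
def StAN1 : Prop := ∀ (M : ℕ) (C0 : ℝ), 1 ≤ C0 → ∃ C : ℝ, 0 ≤ C ∧
  ∀ (s1 s2 s3 θ : ℝ) (v : Fin 2 → ℝ) (p ζ : E3) (g : E3 → ℂ), 0 < s1 → 0 < s2 → 0 < s3 → Integrable g →
    (∀ ξ, g ξ ≠ 0 → ξ ∈ fbx C0 s1⁻¹ s2⁻¹ s3⁻¹ θ v ζ) →
    ∀ z, ‖𝓕⁻ g z‖ₑ ^ 2 * wt M s1 s2 s3 θ v p z ≤
      ENNReal.ofReal (C / (s1 * s2 * s3)) * ∫⁻ y, ‖𝓕⁻ g y‖ₑ ^ 2 * wt M s1 s2 s3 θ v p y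

/-- [AN3] orthogonality with weights: the Fourier supports have overlap at most `m` after enlarging them by the dual box -/
def StAN3 : Prop := ∀ M : ℕ, 4 ≤ M → ∃ C : ℝ, 0 ≤ C ∧
  ∀ (s1 s2 s3 θ : ℝ) (v : Fin 2 → ℝ) (p : E3) (ι : Type) (J : Finset ι) (g : ι → E3 → ℂ) (m : ℕ), 0 < s1 → 0 < s2 → 0 < s3 →
    (∀ j ∈ J, Measurable (g j) ∧ Integrable (g j) ∧ ∫⁻ ξ, ‖g j ξ‖ₑ ^ 2 < ⊤) →
    (∀ ξ : E3, Set.encard {j | j ∈ J ∧ ∃ η, g j η ≠ 0 ∧ ξ - η ∈ fbx 1 s1⁻¹ s2⁻¹ s3⁻¹ θ v 0} ≤ m) →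
    ∫⁻ z, ‖∑ j ∈ J, 𝓕⁻ (g j) z‖ₑ ^ 2 * wt M s1 s2 s3 θ v p z ≤
      ENNReal.ofReal (C * m) * ∑ j ∈ J, ∫⁻ z, ‖𝓕⁻ (g j) z‖ₑ ^ 2 * wt M s1 s2 s3 θ v p z

/-- [AN2a] the gauge of a child -/
def StAN2a : Prop := ∃ C : ℝ, 1 ≤ C ∧ ∀ (n i : ℕ) (σ : Nd) (τ' : Z2) (z : E3), τ' ∈ kids n σ.τ → (∀ k, 0 ≤ σ.τ k ∧ σ.τ k < 2 ^ (i * n)) →
  gS n (i + 1) (σ.ch n τ') z ≤
    C * (1 + gau (2 ^ ((i + 1) * n)) (2 ^ ((i + 1) * n)) (2 ^ (2 * i * n)) 0 (slp n i σ)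
      !₂[2 ^ ((i + 1) * n) * (σ.o 0 : ℝ), 2 ^ ((i + 1) * n) * (σ.o 1 : ℝ), 2 ^ (2 * i * n) * (σ.T : ℝ)] z)

/-- [AN2b] the sum of the weights of the tubes of the piece `σ` -/
def StAN2b : Prop := ∀ M : ℕ, 4 ≤ M → ∃ C : ℝ, 1 ≤ C ∧ ∀ (n i : ℕ) (σ : Nd) (U : Finset Nd) (z : E3), (∀ S ∈ U, S.sg n = σ) →
  ∑ S ∈ U, wS M n i S z ≤
    ENNReal.ofReal C * wt (M - 3) (2 ^ ((i + 1) * n)) (2 ^ ((i + 1) * n)) (2 ^ (2 * i * n)) 0 (slp n i σ)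
      !₂[2 ^ ((i + 1) * n) * (σ.o 0 : ℝ), 2 ^ ((i + 1) * n) * (σ.o 1 : ℝ), 2 ^ (2 * i * n) * (σ.T : ℝ)] z

/-- [AN2c] the sum of the weights of the tubes of a strip of the piece `σ` -/
def StAN2c : Prop := ∀ M : ℕ, 4 ≤ M → ∃ C : ℝ, 1 ≤ C ∧ ∀ (n i : ℕ) (σ : Nd) (θ r : ℝ) (U : Finset Nd) (S0 : Nd) (z : E3), S0 ∈ U →
  (∀ S ∈ U, S.sg n = σ ∧ |fn θ (fun j => (S.o j : ℝ)) - r| ≤ 1) →
  ∑ S ∈ U, wS M n i S z ≤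
    ENNReal.ofReal C * wt (M - 3) (2 ^ ((i + 1) * n)) (2 ^ (i * n)) (2 ^ (2 * i * n)) θ (slp n i S0) (bp n i S0) z

/-- [AN2d] in the setting of [AN2c] : the gauge of a child is at most the gauge of the strip -/
def StAN2d : Prop := ∃ C : ℝ, 1 ≤ C ∧ ∀ (n i : ℕ) (σ : Nd) (θ : ℝ) (S0 : Nd) (τ' : Z2) (z : E3), S0.sg n = σ → τ' ∈ kids n σ.τ →
  (∀ k, 0 ≤ σ.τ k ∧ σ.τ k < 2 ^ (i * n)) →
  gS n (i + 1) (σ.ch n τ') z ≤ C * (1 + gau (2 ^ ((i + 1) * n)) (2 ^ (i * n)) (2 ^ (2 * i * n)) θ (slp n i S0) (bp n i S0) z)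

/-- [AN2e] the integral of a weight -/
def StAN2e : Prop := ∃ C : ℝ, 1 ≤ C ∧ ∀ (s1 s2 s3 θ : ℝ) (v : Fin 2 → ℝ) (p : E3), 0 < s1 → 0 < s2 → 0 < s3 →
  ∫⁻ z, wt 4 s1 s2 s3 θ v p z ≤ ENNReal.ofReal (C * (s1 * s2 * s3))

/-- [AN4] **the amplitudes of a function** -/
def StAN : Prop := ∀ (K M : ℕ) (C0 : ℝ), 1 ≤ K → 1 ≤ C0 → ∃ C : ℝ, 1 ≤ C ∧
  ∀ (n : ℕ) (Γ : Set E3) (v : E3 → Fin 2 → ℝ) (g : E3 → ℂ), Srf C0 (2 ^ (2 * K * n)) Γ v →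
    Measurable g → Integrable g → ∫⁻ ξ, ‖g ξ‖ₑ ^ 2 < ⊤ → (∀ ξ, g ξ ≠ 0 → ξ ∈ Γ) →
    ∃ F : Amp C n K,
      (∀ x : Nd, x.τ = 0 → 0 ≤ x.T → x.T < 2 ^ (2 * K * n) → (∀ j, |x.o j| ≤ 2 ^ (2 * K * n)) →
        ∀ z : E3, |z 0 - x.o 0| ≤ 1 → |z 1 - x.o 1| ≤ 1 → |z 2 - x.T| ≤ 1 → ‖𝓕⁻ g z‖ ≤ C * F.a 0 x) ∧
      (∀ S : Nd, F.a K S ≠ 0 → S.T = 0 ∧ ENNReal.ofReal (F.a K S ^ 2 * 2 ^ (4 * K * n)) ≤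
        ENNReal.ofReal C * ∫⁻ z, ‖𝓕⁻ (pce n K v S.τ g) z‖ₑ ^ 2 * wS M n K S z)

/-- Katz-Tao condition for the densities of the pieces of the top level, on planks of the first time block -/
def PK (n K M : ℕ) (v : E3 → Fin 2 → ℝ) (g : E3 → ℂ) (Λ : ℝ) : Prop :=
  ∀ (θ u1 u2 : ℝ) (p w : Fin 2 → ℝ) (U : Finset Nd), (1 / 2 : ℝ) ^ (K * n) ≤ u1 → u1 ≤ u2 → u2 ≤ 1 →
    (∀ S ∈ U, S.T = 0 ∧ (∀ k, 0 ≤ S.τ k ∧ S.τ k < 2 ^ (K * n)) ∧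
      |fw θ (fun j => (S.o j : ℝ) / 2 ^ (K * n) - p j)| ≤ u2 ∧ |fn θ (fun j => (S.o j : ℝ) / 2 ^ (K * n) - p j)| ≤ u1 ∧
      |fw θ (fun j => (S.τ j : ℝ) / 2 ^ (K * n) - w j)| ≤ u2 ∧ |fn θ (fun j => (S.τ j : ℝ) / 2 ^ (K * n) - w j)| ≤ u1) →
    ∑ S ∈ U, ∫⁻ z, ‖𝓕⁻ (pce n K v S.τ g) z‖ₑ ^ 2 * wS M n K S z ≤ ENNReal.ofReal (Λ * (u1 * u2 * 2 ^ (6 * K * n)))

/-- [E] **the estimate at exponent three** for functions with Fourier support near a curved surface, in the box of size `R = 2^(2 K n)`, from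
the discrete theorem. `K` depends on `δ` only. -/
def StE : Prop := ∀ δ : ℝ, 0 < δ → ∃ K : ℕ, 1 ≤ K ∧ ∀ (M : ℕ) (C0 : ℝ), 1 ≤ C0 → ∃ C : ℝ, 1 ≤ C ∧
  ∀ (n : ℕ) (Γ : Set E3) (v : E3 → Fin 2 → ℝ) (g : E3 → ℂ) (Λ : ℝ), Srf C0 (2 ^ (2 * K * n)) Γ v →
    Measurable g → Integrable g → ∫⁻ ξ, ‖g ξ‖ₑ ^ 2 < ⊤ → (∀ ξ, g ξ ≠ 0 → ξ ∈ Γ) → 0 ≤ Λ → PK n K (M + 4) v g Λ →
    ∫⁻ z in {z : E3 | |z 0| ≤ 2 ^ (2 * K * n) ∧ |z 1| ≤ 2 ^ (2 * K * n) ∧ 0 ≤ z 2 ∧ z 2 ≤ 2 ^ (2 * K * n)}, ‖𝓕⁻ g z‖ₑ ^ 3 ≤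
      ENNReal.ofReal (C * 2 ^ (δ * (K * n)) * Real.sqrt Λ) * ∫⁻ ξ, ‖g ξ‖ₑ ^ 2

/-- [E-ASM] -/
def StEasm : Prop := StCORE → StAN → StE

end Vale.Agent.P122.A
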