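import Vale.Agent.P122.A.Defs
import Vale.Agent.P122.FI.Defs
import Vale.Agent.P117.K.Defs

/-! # P122 / A : surface data of the two problems, and the passage from [E] to the local estimates (helper117) -/

open MeasureTheory Complex Set Vale.Agent.P122.C
open scoped ENNReal NNReal ContDiff FourierTransform SchwartzMap

set_option linter.all false

namespace Vale.Agent.P122.A

/-! ## P122 : graphs. `h` is replaced by `-h - (y1 + y2)/2`, which is a reflection and a shear of the physical space -/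

/-- the neighbourhood of the reflected and sheared graph -/
def Ggr (h : ℝ × ℝ → ℝ) (r C1 R : ℝ) : Set E3 :=
  {ξ | (ξ 0, ξ 1) ∈ FI.sq r ∧ |ξ 2 + h (ξ 0, ξ 1) + (ξ 0 + ξ 1) / 2| ≤ C1 / R}

/-- its slopes -/
noncomputable def vgr (h : ℝ × ℝ → ℝ) (ξ : E3) : Fin 2 → ℝ :=
  ![fderiv ℝ h (ξ 0, ξ 1) (1, 0) + 1 / 2, fderiv ℝ h (ξ 0, ξ 1) (0, 1) + 1 / 2]

/-- [AN5-122] -/
def StSrf122 : Prop := ∀ h : ℝ × ℝ → ℝ, FI.Phase h → ∃ r0 : ℝ, 0 < r0 ∧ ∀ r : ℝ, 0 < r → r ≤ r0 → ∀ C1 : ℝ, 0 < C1 →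
  ∃ C0 : ℝ, 1 ≤ C0 ∧ ∀ R : ℝ, 1 ≤ R → Srf C0 R (Ggr h r C1 R) (vgr h)

/-- [AN7] the local estimate of P122 -/
def StLOC122 : Prop := StE → StSrf122 → ∀ K : ℕ, FI.LOC2 K

/-! ## P117 : the sphere -/

open Vale.Agent.P117 in
/-- the neighbourhood of the piece of the sphere -/
def Gsph (R : ℝ) : Set E3 := {ξ | |‖ξ‖ ^ 2 - 1| ≤ 1 / (100 * R) ∧ ‖ξ - K.xist‖ ≤ 1 / 100}

/-- its slopes, shifted by `o` halves of a top cell -/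
noncomputable def vsph (n K : ℕ) (o : Fin 2 × Fin 2) (ξ : E3) : Fin 2 → ℝ :=
  ![ξ 0 / ξ 2 - ((o.1.val : ℝ) / 2) / 2 ^ (K * n), ξ 1 / ξ 2 - ((o.2.val : ℝ) / 2) / 2 ^ (K * n)]

/-- [AN5-117] -/
def StSrf117 : Prop := ∃ C0 : ℝ, 1 ≤ C0 ∧ ∀ (K n : ℕ) (o : Fin 2 × Fin 2), 1 ≤ K →
  Srf C0 (2 ^ (2 * K * n)) (Gsph (2 ^ (2 * K * n))) (vsph n K o)

open Vale.Agent.P117 in
/-- [AN6] decomposition of the localised Bochner-Riesz operator into four amplitudes on shifted slope grids (vanishing near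
the walls of the top cells), with the Katz-Tao condition for their densities -/
def StKINs : Prop := ∀ ε : ℝ, 0 < ε → ∃ M0 : ℕ, ∀ (M Kk : ℕ) (B c1 : ℝ) (φ : ℝ → ℂ) (χ : E3 → ℂ), M0 ≤ M → 1 ≤ Kk → 1 ≤ B →
  0 < c1 → c1 ≤ 1 / 100 → K.Prf c1 φ → K.Cut c1 χ → ∃ C : ℝ, 1 ≤ C ∧
  ∀ (n : ℕ) (R : ℝ) (h : E3 → ℂ), (2:ℝ) ^ (2 * Kk * n) ≤ R → R ≤ B * 2 ^ (2 * Kk * n) → K.Ad1 h →
  ∃ g : Fin 2 × Fin 2 → E3 → ℂ,
    (∀ o, Measurable (g o) ∧ Integrable (g o) ∧ ∫⁻ ξ, ‖g o ξ‖ₑ ^ 2 < ⊤ ∧ ∀ ξ, g o ξ ≠ 0 → ξ ∈ Gsph (2 ^ (2 * Kk * n))) ∧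
    (∀ x, ‖K.SR φ χ R h x‖ ≤ ∑ o, ‖𝓕⁻ (g o) x‖) ∧
    (∀ o, ∫⁻ ξ, ‖g o ξ‖ₑ ^ 2 ≤ ENNReal.ofReal C * ∫⁻ y, ‖h y‖ₑ ^ 2) ∧
    (∀ o, PK n Kk M (vsph n Kk o) (g o) (C * 2 ^ (ε * (Kk * n))))

open Vale.Agent.P117 in
/-- [FI-117a] the local estimate of P117 at exponent three -/
def StLOC117 : Prop := StE → StSrf117 → StKINs → K.StBRb 3 0

open Vale.Agent.P117 in
/-- [FI-117b] from the local estimate to the full conjecture -/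
def StFull117 : Prop := K.StBRb 3 0 → ∀ (p : ℝ≥0∞) (δ : ℝ), 1 ≤ p → max (3 * |(1 / p).toReal - 1 / 2| - 1 / 2) 0 < δ → K.BRbdd δ p

end Vale.Agent.P122.A
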